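import Vale.Agent.P144D.U.Sec
import Vale.Agent.P144Z.U4.Main
import Vale.Agent.P144Z.M.Main

/-!
Universality for finite sets of sites.
-/

namespace Vale.Agent.P144Z

open Finset P144

theorem Spins.comp {Λ : Finset Site} {r : ℕ} {ι ι' : Type} {x : ι → Site} (h : Spins Λ r x)
    {f : ι' → ι} (hf : Function.Injective f) : Spins Λ r (x ∘ f) :=
  ⟨fun i => h.ins (f i), fun _ _ hi => h.sep _ _ fun e => hi (hf e)⟩

theorem Spins.mono {Λ : Finset Site} {r r' : ℕ} {ι : Type} {x : ι → Site} (h : Spins Λ r x)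
    (hr : r' ≤ r) : Spins Λ r' x :=
  ⟨fun i v hv => h.ins i v (hv.trans hr), fun i i' hi => hr.trans_lt (h.sep i i' hi)⟩

namespace UL

theorem sc_ge {L J : ℕ} (hL : 2 ≤ L) : 8 * J + 8 ≤ sc L J := by
  have h1 : J < 2 ^ J := Nat.lt_two_pow_self
  have h2 : 2 ^ J ≤ L ^ J := Nat.pow_le_pow_left hL J
  unfold sc
  omega

theorem core (hK : KStmt) {q : Par} {Zσ Zε c η γ δ α κ : ℝ} {L n₁ n₂ : ℕ} (hL : 2 ≤ L)
    (hM : MainR q Zσ Zε L c η n₁ n₂ γ δ) (hκ : κ ≤ 1 / 8)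
    (hB : ∀ (M : ℕ) [NeZero M] (R : Reg M) (B : Gauge M) (r J : ℕ), Shape R.In α κ r →
      Str R.pw B r → 4 * r ≤ M → 1 ≤ J → 8 * sc L J ≤ r → BAll (R.pw * B) L J c η n₁ n₂)
    (hΔ : ∀ (M : ℕ) [NeZero M] (R : Reg M),
      (R.cor q).Ok ∧ (R.cor q).Off R.pw ∧ (R.cor q).Sm q.R γ δ) (n m H₀ Λ₁ : ℕ) :
    ∃ B : ℝ, ∀ ε > 0, ∃ J₀ : ℕ, ∀ J ≥ J₀, ∀ (M : ℕ) [NeZero M] (Λ : Finset Site) (fr : Bool)
      (T r H : ℕ) (x : Fin n → Site) (y : Fin m → Site) (j : Fin m → Fin 2) (a : Site)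
      (hs : Fin H → Site), H ≤ H₀ → Shape (regOf M Λ fr).In α κ r → Holes Λ T r a hs →
      Spins Λ r (Sum.elim x y) → (fr = true → H = 0 ∧ Even n) → 16 * sc L J + 1 ≤ r → r ≤ T →
      T ≤ Λ₁ * sc L J → M = 64 * T → ∀ t : Finset (Fin m),
        |(sc L J : ℝ) ^ ((n : ℝ) / 8) * (sc L J : ℝ) ^ t.card * mx q (regOf M Λ fr) a hs y j x t -
          Zσ ^ n * (sc L J : ℝ) ^ ((n : ℝ) / 8) * (Zε * sc L J) ^ t.card *
            mx par0 (regOf M Λ fr) a hs y j x t| ≤ ε ∧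
        |(sc L J : ℝ) ^ ((n : ℝ) / 8) * (sc L J : ℝ) ^ t.card *
          mx par0 (regOf M Λ fr) a hs y j x t| ≤ B := by
  obtain ⟨CK, Γ, h, hCK, hΓ, hh, hK⟩ := hK n Λ₁
  obtain ⟨C, hM⟩ := hM (n + H₀ + 1 + m) (64 * Λ₁) Γ h hΓ hh
  refine ⟨2 ^ H₀ * (|C| * CK), fun ε hε => ?_⟩
  obtain ⟨J₀, hM⟩ := hM (ε / (2 ^ H₀ * (CK + 1))) (by positivity)
  refine ⟨max J₀ 16, fun J hJ M _ Λ fr T r H x y j a hs hH hS h1 h2 hfr r1 r2 r3 hMT t => ?_⟩
  have l1 : 8 * J + 8 ≤ sc L J := sc_ge hL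
  have l2 : 16 ≤ J := le_of_max_le_right hJ
  set ℓ := sc L J with hℓ
  set R := regOf M Λ fr with hR
  have l0 : (0 : ℝ) < ℓ := by exact_mod_cast (by omega : 0 < ℓ)
  have r4 : 8 * ℓ ≤ r - 3 := by omega
  have hx : Spins Λ r x := h2.comp Sum.inl_injective
  have hxy : Spins Λ r (Sum.elim x fun k : t => y k) := by
    have := h2.comp (f := Sum.map id fun k : t => k.1)
      (Function.injective_id.sumMap Subtype.val_injective)
    rwa [Sum.elim_comp_map] at this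
  have hS' := hS.mono le_rfl (Nat.sub_le r 1)
  have key : ∀ S : Finset (Fin H),
      |mixC q (R.cor q) R.pw (spinG M a x * holeG M a hs S) (fun k : t => yE M y j k)
          (fun k : t => dE y j k) - Zσ ^ n * Zε ^ t.card * mixC par0 (R.cor par0) R.pw
          (spinG M a x * holeG M a hs S) (fun k : t => yE M y j k) (fun k : t => dE y j k)| ≤
        ε / (2 ^ H₀ * (CK + 1)) / (ℓ : ℝ) ^ t.card * (CK * (ℓ : ℝ) ^ (-((n : ℝ) / 8))) ∧
      |mixC par0 (R.cor par0) R.pw (spinG M a x * holeG M a hs S) (fun k : t => yE M y j k)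
          (fun k : t => dE y j k)| ≤ C / (ℓ : ℝ) ^ t.card * (CK * (ℓ : ℝ) ^ (-((n : ℝ) / 8))) := by
    intro S
    obtain ⟨s1, -, -, -, s5, s6⟩ := str_reg (M := M) S h1 hx hfr (by omega) (by omega)
    obtain ⟨k1, k2⟩ := hK M Λ fr α T r ℓ H x a hs S (hS.mono hκ le_rfl) h1 hx hfr (by omega)
      (by omega) (by omega) r2 r3 hMT.ge
    have b0 := hB M R 1 (r - 1) J hS' (str_one _ _) (by omega) (by omega) (by omega)
    rw [mul_one] at b0
    have sp := sepW_reg (M := M) S (fun k : t => j k) J h1 hxy hfr (by omega) (by omega)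
    have cd : t.card ≤ m := by simpa using card_le_univ t
    obtain ⟨d1, d2, d3⟩ := hΔ M R
    have := hM J (le_of_max_le_left hJ) M R.pw _ (R.cor q) t (fun k : t => yE M y j k)
      (fun k : t => dE y j k) n (CK * (ℓ : ℝ) ^ (-((n : ℝ) / 8)))
      { P_ok := R.isP
        str := s1.mono (by omega)
        sep := ⟨fun f hf f' h' h'' => sp.ff f hf f' h' (h''.trans r4),
          fun k f hf => sp.fs k f (hf.trans r4), fun k k' hk => r4.trans_lt (sp.ss k k' hk)⟩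
        lo := by omega
        hi := by rw [hMT, mul_assoc]; exact Nat.mul_le_mul_left _ r3
        bd := hB M R _ (r - 1) J hS' s1 (by omega) (by omega) (by omega)
        bd0 := b0
        gap := k1
        card := by rw [Fintype.card_coe]; omega
        cnt := s6 } d1 d3 d2 (by positivity) (k2 _ _ _ _)
    rwa [Fintype.card_coe, ← R.cor_par0] at this
  have cS : ((univ : Finset (Finset (Fin H))).card : ℝ) ≤ 2 ^ H₀ := by
    rw [card_univ, Fintype.card_finset, Fintype.card_fin]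
    exact_mod_cast Nat.pow_le_pow_right (by norm_num) hH
  have w0 : 0 < (ℓ : ℝ) ^ ((n : ℝ) / 8) * (ℓ : ℝ) ^ t.card := by positivity
  have w1 : ∀ u : ℝ, (ℓ : ℝ) ^ ((n : ℝ) / 8) * (ℓ : ℝ) ^ t.card *
      (u / (ℓ : ℝ) ^ t.card * (CK * (ℓ : ℝ) ^ (-((n : ℝ) / 8)))) = u * CK := fun u => by
    rw [Real.rpow_neg l0.le]
    field_simp
  have w2 : ∀ (f : Finset (Fin H) → ℝ) (u : ℝ), 0 ≤ u →
      (∀ S, |f S| ≤ u / (ℓ : ℝ) ^ t.card * (CK * (ℓ : ℝ) ^ (-((n : ℝ) / 8)))) →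
      |(ℓ : ℝ) ^ ((n : ℝ) / 8) * (ℓ : ℝ) ^ t.card * ∑ S, f S| ≤ 2 ^ H₀ * (u * CK) := by
    intro f u hu hf
    rw [mul_sum]
    refine (abs_sum_le_sum_abs _ _).trans ((sum_le_card_nsmul _ _ (u * CK) fun S _ => ?_).trans ?_)
    · rw [abs_mul, abs_of_pos w0, ← w1]
      exact mul_le_mul_of_nonneg_left (hf S) w0.le
    · rw [nsmul_eq_mul]
      exact mul_le_mul_of_nonneg_right cS (by positivity)
  constructor
  · have := w2 _ _ (by positivity) fun S => (key S).1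
    rw [sum_sub_distrib, ← mul_sum] at this
    refine le_trans (le_of_eq (congrArg _ ?_)) (this.trans ?_)
    · unfold mx
      ring
    · calc _ = ε * (CK / (CK + 1)) := by field_simp
        _ ≤ ε := mul_le_of_le_one_right hε.le (div_le_one_of_le₀ (by linarith) (by linarith))
  · exact w2 _ _ (abs_nonneg C) fun S => (key S).2.trans (by gcongr; exact le_abs_self C)

theorem one_le_mx {M : ℕ} [NeZero M] {Λ : Finset Site} {fr : Bool} {T H m : ℕ} {a : Site}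
    {hs : Fin H → Site} (y : Fin m → Site) (j : Fin m → Fin 2) (hΛ : ∀ v ∈ Λ, zd v 0 ≤ T)
    (hM : 4 * (T + 2) ≤ M) (hfr : fr = true → H = 0)
    (h0 : ZwC par0 ((regOf M Λ fr).cor par0) (regOf M Λ fr).pw 1 ≠ 0) :
    1 ≤ mx par0 (regOf M Λ fr) a hs y j Fin.elim0 ∅ := by
  have e : ∀ S, mixC par0 ((regOf M Λ fr).cor par0) (regOf M Λ fr).pw
      (spinG M a Fin.elim0 * holeG M a hs S) (fun k : (∅ : Finset (Fin m)) => yE M y j k)
      (fun k => dE y j k) =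
      Zw par0 ((regOf M Λ fr).pw * holeG M a hs S) 1 / Zw par0 (regOf M Λ fr).pw 1 := fun S => by
    simp only [mixC, spinG, univ_eq_empty, prod_empty, one_mul, Reg.cor_par0, ZwC_zero]
    rfl
  rw [Reg.cor_par0, ZwC_zero] at h0
  unfold mx
  simp only [e]
  refine le_trans (le_of_eq ?_) (single_le_sum (fun S _ => ?_) (mem_univ ∅))
  · rw [holeG, prod_empty, mul_one, div_self h0]
  · cases fr
    · exact ratio_nonneg hΛ hM a hs S
    · obtain rfl := hfr rfl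
      rw [Subsingleton.elim S ∅, holeG, prod_empty, mul_one, div_self h0]
      exact zero_le_one

theorem lcor_odd {J lam β : ℝ} {V : Finset Site → ℝ} (hV : IsPotential V) {Λ : Finset Site}
    {n m : ℕ} (hn : Odd n) {x : Fin n → Site} {y : Fin m → Site} {j : Fin m → Fin 2}
    (hx : ∀ i, x i ∈ Λ) (hy : ∀ k, y k ∈ Λ ∧ y k + dir (j k) ∈ Λ) :
    lcor (gibbs J lam V β none Λ) x y j = 0 := by
  refine UG.gibbs_free_odd hV Λ (fun σ σ' h => ?_) fun σ => ?_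
  · simp only [fun i => h _ (hx i), fun k => h _ (hy k).1, fun k => h _ (hy k).2]
  · simp only [U1.sp_not, neg_mul_neg]
    rw [prod_neg, card_univ, Fintype.card_fin, hn.neg_one_pow]
    ring

theorem rescale {r l c : ℝ} (hl : 0 < l) (hr : 0 < r) (hc : 1 ≤ c) (h : r ≤ c * l) (n m : ℕ) :
    (l ^ ((n : ℝ) / 8) * l ^ m)⁻¹ ≤ c ^ (n + m) * (r ^ (-((n : ℝ) / 8)) / r ^ m) := by
  have h1 : r ^ ((n : ℝ) / 8) ≤ c ^ n * l ^ ((n : ℝ) / 8) := by
    refine (Real.rpow_le_rpow hr.le h (by positivity)).trans ?_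
    rw [Real.mul_rpow (by linarith) hl.le, ← Real.rpow_natCast]
    refine mul_le_mul_of_nonneg_right (Real.rpow_le_rpow_of_exponent_le hc ?_) (by positivity)
    linarith [Nat.cast_nonneg (α := ℝ) n]
  have h2 : r ^ m ≤ c ^ m * l ^ m := by
    rw [← mul_pow]
    exact pow_le_pow_left₀ hr.le h m
  have h3 := mul_le_mul h1 h2 (by positivity) (by positivity)
  rw [Real.rpow_neg hr.le, inv_eq_one_div, inv_eq_one_div, div_div, mul_one_div,
    div_le_div_iff₀ (by positivity) (by positivity), one_mul, pow_add]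
  linarith

end UL

open UL in
/-- Universality on the lattice. -/
theorem latStmt_of (hM : MainBoth) (hB : BdStmt) (hK : KStmt) : LatStmt := by
  intro α hα
  obtain ⟨c, hc, n₁, hB⟩ := hB α hα
  obtain ⟨η₁, hη₁, hM⟩ := hM c n₁ hc
  obtain ⟨n₂, LB, hB⟩ := hB η₁ hη₁
  obtain ⟨LM, hM⟩ := hM n₂
  refine ⟨max 2 (max LB LM), fun L hL => ?_⟩
  have hL2 : 2 ≤ L := le_of_max_le_left hL
  obtain ⟨κ, hκ, hB⟩ := hB L (le_of_max_le_left (le_of_max_le_right hL))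
  refine ⟨min κ (1 / 8), by positivity, fun ε₀ hε₀ => ?_⟩
  obtain ⟨η₀, hη₀, hM⟩ := hM L (le_of_max_le_right (le_of_max_le_right hL)) ε₀ hε₀
  obtain ⟨C₂, hC₂, hΔ⟩ := cor_reg
  refine ⟨η₀ / C₂, by positivity, fun R => ?_⟩
  obtain ⟨δ₀, hδ₀, hM⟩ := hM R
  obtain ⟨C₃, hC₃, hΔ⟩ := hΔ R
  refine ⟨δ₀ / C₃, by positivity, fun q hR hq => ?_⟩
  obtain ⟨Zσ, Zε, z1, z2, hP, hM⟩ := hM q hR
    (hq.mono (div_le_self hη₀.le hC₂) (div_le_self hδ₀.le hC₃))
  refine ⟨Zσ, Zε, z1, z2, hP, fun J lam β hJ hμ hx n m Λ₀ ε hε => ?_⟩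
  have hΔ' : ∀ (M : ℕ) [NeZero M] (R : Reg M),
      (R.cor q).Ok ∧ (R.cor q).Off R.pw ∧ (R.cor q).Sm q.R η₀ δ₀ := fun M _ R => by
    have := hΔ M R q _ _ hR hq.ok hq.x hq.small
    rwa [mul_div_cancel₀ _ (by positivity), mul_div_cancel₀ _ (by positivity)] at this
  have rq : Rel J lam β q := ⟨hq.ok.pot, hq.ok.range, hμ, hx⟩
  have r0 : Rel J 0 (Kc / J) par0 := ⟨U1.pot_zero, fun _ h => absurd rfl h, (mul_zero _).symm, by
    rw [mul_assoc, div_mul_cancel₀ _ hJ.ne']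
    exact U4.tc_eq⟩
  obtain ⟨H₀, hH⟩ := exists_holes (Λ₀ + 1)
  have co := core hK hL2 hM (min_le_right κ (1 / 8)) (fun M _ R B r J h =>
    hB M R B r J (h.mono (min_le_left _ _) le_rfl)) hΔ'
  obtain ⟨B₁, c₁⟩ := co n m H₀ (2 * (Λ₀ + 1) * (1200 * L))
  obtain ⟨B₀, c₀⟩ := co 0 m H₀ (2 * (Λ₀ + 1) * (1200 * L))
  set z : ℝ := (|Zσ| + 1) ^ n * (|Zε| + 1) ^ (m + 1) with hz
  have a1 : 1 ≤ |Zσ| + 1 := by linarith [abs_nonneg Zσ]
  have a2 : 1 ≤ |Zε| + 1 := by linarith [abs_nonneg Zε]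
  have a3 : 1 ≤ (|Zσ| + 1) ^ n := one_le_pow₀ a1
  have a4 : ∀ k ≤ m + 1, |Zε ^ k| ≤ (|Zε| + 1) ^ (m + 1) := fun k hk => by
    rw [abs_pow]
    exact (pow_le_pow_left₀ (abs_nonneg _) (by linarith) k).trans (pow_le_pow_right₀ a2 hk)
  have a5 : ∀ k ≤ m + 1, |Zε ^ k| ≤ z := fun k hk =>
    (a4 k hk).trans (le_mul_of_one_le_left (by positivity) a3)
  have a6 : ∀ k ≤ m + 1, |Zσ ^ n * Zε ^ k| ≤ z := fun k hk => by
    rw [abs_mul, abs_pow]
    exact mul_le_mul (pow_le_pow_left₀ (abs_nonneg _) (by linarith) n) (a4 k hk) (abs_nonneg _)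
      (by positivity)
  have a7 : ∀ u v B : ℝ, |u| ≤ z → |v| ≤ B → |u * v| ≤ z * |B| := fun u v B h1 h2 => by
    rw [abs_mul]
    exact mul_le_mul h1 (h2.trans (le_abs_self B)) (abs_nonneg _) (by positivity)
  have z0 : 0 ≤ z := by positivity
  have cL : (1 : ℝ) ≤ (1200 * L : ℕ) := by exact_mod_cast (by omega : 1 ≤ 1200 * L)
  obtain ⟨δ, hδ, hψ⟩ := psi_cont m (z * |B₀| + z * |B₁|)
    (ε := ε / ((1200 * L : ℕ) : ℝ) ^ (n + m)) (by positivity)
  obtain ⟨J₁, c₁⟩ := c₁ δ hδ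
  obtain ⟨J₀, c₀⟩ := c₀ δ hδ
  refine ⟨64 * (17 * sc L (max J₀ J₁) + R + 2), fun r hr Λ b x y j hb hS hΛ hs => ?_⟩
  have s8 := sc_ge (J := max J₀ J₁) hL2
  have hx' : ∀ i, x i ∈ Λ := fun i => hs.ins (Sum.inl i) _ (by simp [zd_self])
  have hy' : ∀ k, y k ∈ Λ ∧ y k + dir (j k) ∈ Λ := fun k =>
    ⟨hs.ins (Sum.inr k) _ (by simp [zd_self]),
      hs.ins (Sum.inr k) _ ((zd_add_dir _ _).trans (by omega))⟩
  have r0' : (0 : ℝ) < r := by exact_mod_cast (by omega : 0 < r)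
  by_cases ho : b = none ∧ Odd n
  · obtain ⟨rfl, hn⟩ := ho
    rw [lcor_odd hq.ok.pot hn hx' hy', lcor_odd U1.pot_zero hn hx' hy', mul_zero, sub_zero,
      abs_zero]
    positivity
  obtain ⟨N, n1, n2, n3⟩ := Mn.exists_scale (c := 17) (J := max J₀ J₁) (M := r / 64) hL2
    (by norm_num) (by omega)
  rw [show sc L (N + 1) = L * sc L N by unfold sc; ring] at n3
  have s9 := sc_ge (J := N) hL2
  have e1 : (Λ₀ + 1) * r = Λ₀ * r + r := by ring
  have e2 : 2 * (Λ₀ + 1) * (1200 * L) * sc L N = 2 * ((Λ₀ + 1) * (1200 * (L * sc L N))) := by ring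
  have e3 : sc L N ≤ L * sc L N := Nat.le_mul_of_pos_left _ (by omega)
  have e4 : r ≤ 1200 * (L * sc L N) := by omega
  have e5 := Nat.mul_le_mul_left (Λ₀ + 1) e4
  set T := (Λ₀ + 1) * r with hT
  have hΛ' : ∀ v ∈ Λ, zd v 0 ≤ T := fun v hv => (hΛ v hv).trans (by omega)
  have : NeZero (64 * (2 * T)) := ⟨by omega⟩
  set M := 64 * (2 * T) with hMd
  have sZ : ShapeZ Λ α (1 / 8) r := fun u => by
    obtain ⟨S₁, S₂, ν₁, ν₂, k1, k2, k3, k4, k5, k6⟩ := hS u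
    have k : ∀ v, min κ (1 / 8) * len v ≤ 1 / 8 * len v := fun v =>
      mul_le_mul_of_nonneg_right (min_le_right _ _) (Real.sqrt_nonneg _)
    exact ⟨S₁, S₂, ν₁, ν₂, k1, k2, k3, fun u hu v hv => k4 u hu v ((k v).trans hv),
      fun u hu v hv => k5 u hu v ((k v).trans hv), k6⟩
  obtain ⟨fr, H, hH, a, hs', rfl, h1, hc, hfr⟩ : ∃ fr : Bool, ∃ H ≤ H₀, ∃ a,
      ∃ hs' : Fin H → Site, b = (if fr then none else some fun _ => true) ∧
      Holes Λ (2 * T) (r / 64) a hs' ∧ (fr = false → Cn M Λ a hs') ∧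
      (fr = true → H = 0 ∧ Even n) := by
    obtain ⟨H, hH, a, hs', h1, hc⟩ := hH Λ α T r sZ (by omega) (by omega) le_rfl hΛ'
    rcases hb with rfl | rfl
    · exact ⟨true, 0, Nat.zero_le _, a, Fin.elim0, rfl, ⟨h1.box, h1.a_le, fun i => i.elim0,
        h1.a_out, fun i => i.elim0, fun i => i.elim0, fun i => i.elim0⟩, by simp,
        fun _ => ⟨rfl, Nat.not_odd_iff_even.1 fun h => ho ⟨rfl, h⟩⟩⟩
    · exact ⟨false, H, hH, a, hs', rfl, h1, fun _ => hc M (by omega), by simp⟩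
  have hS' : Shape (regOf M Λ fr).In α (min κ (1 / 8)) (r / 64) :=
    (hS.shape hΛ' (by omega)).mono le_rfl (by omega)
  have hs1 := hs.mono (Nat.div_le_self r 64)
  have hs0 : Spins Λ (r / 64) (Sum.elim (Fin.elim0 : Fin 0 → Site) y) := by
    have := hs1.comp (f := Sum.map (Fin.elim0 : Fin 0 → Fin n) id)
      (Function.Injective.sumMap (fun i => i.elim0) Function.injective_id)
    have e : x ∘ (Fin.elim0 : Fin 0 → Fin n) = Fin.elim0 := funext fun i => i.elim0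
    rwa [Sum.elim_comp_map, e, Function.comp_id] at this
  have d₁ := c₁ N (le_of_max_le_right n1) M Λ fr _ _ H x y j a hs' hH hS' h1 hs1 hfr (by omega)
    (by omega) (by omega) rfl
  have d₀ := c₀ N (le_of_max_le_left n1) M Λ fr _ _ H Fin.elim0 y j a hs' hH hS' h1 hs0
    (fun h => ⟨(hfr h).1, Even.zero⟩) (by omega) (by omega) (by omega) rfl
  simp only [Nat.cast_zero, zero_div, Real.rpow_zero, pow_zero, one_mul] at d₀
  have q1 := lcor_eq rq h1 hc (by omega) hx' hy' hfr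
  have q0 := lcor_eq r0 h1 hc (by change 4 * (_ + 0 + 2) ≤ _; omega) hx' hy' hfr
  have o1 := one_le_mx (a := a) (hs := hs') y j h1.box (by omega) (fun h => (hfr h).1)
    (ne_zero r0 h1 hc (by change 4 * (_ + 0 + 2) ≤ _; omega) fun h => (hfr h).1)
  change lcor (gibbs J 0 (fun _ => 0) _ _ _) _ _ _ = _ at q0
  rw [q1, q0]
  set ℓ : ℝ := ((sc L N : ℕ) : ℝ) with hℓ
  have l0 : 0 < ℓ := by rw [hℓ]; exact_mod_cast (by omega : 0 < sc L N)
  set w : ℝ := ℓ ^ ((n : ℝ) / 8) with hw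
  have w0 : 0 < w * ℓ ^ m := by positivity
  have b0 : 0 ≤ z * |B₀| := by positivity
  have b1 : 0 ≤ z * |B₁| := by positivity
  have key := hψ _ _ (fun k => ℓ * mx q (regOf M Λ fr) a hs' y j Fin.elim0 {k})
    (fun k => Zε * ℓ * mx par0 (regOf M Λ fr) a hs' y j Fin.elim0 {k})
    (fun t => w * ℓ ^ t.card * mx q (regOf M Λ fr) a hs' y j x t)
    (fun t => Zσ ^ n * w * (Zε * ℓ) ^ t.card * mx par0 (regOf M Λ fr) a hs' y j x t) o1
    (by
      have h := a7 _ _ _ (a5 0 (by omega)) (d₀ ∅).2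
      simp only [card_empty, pow_zero, one_mul] at h
      linarith [le_abs_self (mx par0 (regOf M Λ fr) a hs' y j Fin.elim0 ∅)])
    (fun k => by
      have h := a7 _ _ _ (a5 1 (by omega)) (d₀ {k}).2
      simp only [card_singleton, pow_one, ← mul_assoc] at h
      linarith)
    (fun t => by
      have h := a7 _ _ _ (a6 t.card ((by simpa using card_le_univ t : t.card ≤ m).trans
        (Nat.le_succ m))) (d₁ t).2
      refine le_trans (le_of_eq (congrArg _ (by ring))) (h.trans (by linarith)))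
    (by simpa only [card_empty, pow_zero, one_mul] using (d₀ ∅).1)
    (fun k => by simpa only [card_singleton, pow_one] using (d₀ {k}).1) fun t => (d₁ t).1
  rw [psi_scale, psi_scale] at key
  have rs := rescale l0 r0' cL (by rw [hℓ]; exact_mod_cast (by rwa [mul_assoc])) n m
  generalize UL.psi (mx q (regOf M Λ fr) a hs' y j Fin.elim0 ∅) _ _ = u at key ⊢
  generalize UL.psi (mx par0 (regOf M Λ fr) a hs' y j Fin.elim0 ∅) _ _ = u₀ at key ⊢
  have e : u - Zσ ^ n * Zε ^ m * u₀ =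
      (w * ℓ ^ m)⁻¹ * (w * ℓ ^ m * u - Zσ ^ n * w * (Zε * ℓ) ^ m * u₀) := by
    rw [eq_inv_mul_iff_mul_eq₀ w0.ne']
    ring
  rw [e, abs_mul, abs_of_pos (inv_pos.2 w0)]
  refine (mul_le_mul rs key (abs_nonneg _) (by positivity)).trans (le_of_eq ?_)
  field_simp

end Vale.Agent.P144Z
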