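import Vale.Agent.P144Z.U1.Dlr

/-!
Linearity and spin flip for the finite-volume Gibbs expectations.
-/

namespace Vale.Agent.P144Z.UG

open Finset hiding expect ext
open Vale.Agent.P144

theorem expect_sum {ι : Type} (β : ℝ) (H : Config → ℝ) (Λ : Finset Site) (η : Config)
    (s : Finset ι) (c : ι → ℝ) (F : ι → Config → ℝ) :
    expect β H Λ η (fun σ => ∑ i ∈ s, c i * F i σ) = ∑ i ∈ s, c i * expect β H Λ η (F i) := by
  unfold expect
  simp only [sum_mul, ← mul_div_assoc, ← sum_div, mul_sum]
  rw [sum_comm]
  simp only [mul_assoc]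

theorem expect_one (β : ℝ) (H : Config → ℝ) (Λ : Finset Site) (η : Config) :
    expect β H Λ η (fun _ => 1) = 1 := by
  unfold expect
  simp only [one_mul]
  exact div_self (sum_pos (fun _ _ => Real.exp_pos _) ⟨∅, empty_mem_powerset Λ⟩).ne'

variable {J lam β : ℝ} {V : Finset Site → ℝ}

theorem gibbs_sum {ι : Type} (b : Option Config) (Λ : Finset Site) (s : Finset ι) (c : ι → ℝ)
    (F : ι → Config → ℝ) : gibbs J lam V β b Λ (fun σ => ∑ i ∈ s, c i * F i σ) =
      ∑ i ∈ s, c i * gibbs J lam V β b Λ (F i) := by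
  cases b <;> exact expect_sum _ _ _ _ _ _ _

theorem gibbs_one (b : Option Config) (Λ : Finset Site) : gibbs J lam V β b Λ (fun _ => 1) = 1 := by
  cases b <;> exact expect_one _ _ _ _

theorem gibbs_mul (b : Option Config) (Λ : Finset Site) (c : ℝ) (F : Config → ℝ) :
    gibbs J lam V β b Λ (fun σ => c * F σ) = c * gibbs J lam V β b Λ F := by
  have h := gibbs_sum (J := J) (lam := lam) (β := β) (V := V) b Λ {()} (fun _ => c) fun _ => F
  simpa using h

theorem gibbs_sub_const (b : Option Config) (Λ : Finset Site) (c : ℝ) (F : Config → ℝ) :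
    gibbs J lam V β b Λ (fun σ => F σ - c) = gibbs J lam V β b Λ F - c := by
  have h := gibbs_sum (J := J) (lam := lam) (β := β) (V := V) b Λ univ
    (fun i : Bool => if i then 1 else -c) fun i => if i then F else fun _ => 1
  simp only [Fintype.sum_bool, if_true, Bool.false_eq_true, if_false, one_mul, mul_one,
    gibbs_one] at h
  simpa only [sub_eq_add_neg] using h

theorem energy_not (hV : IsPotential V) (P : Finset Site → Prop) (σ : Config) :
    energy J lam V P (fun x => !σ x) = energy J lam V P σ := by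
  unfold energy
  congr 1
  refine finsum_congr fun A => finsum_congr fun _ => ?_
  by_cases h : U1.cf J lam V A = 0
  · unfold U1.cf at h
    rw [h, zero_mul, zero_mul]
  · simp only [U1.sp_not]
    rw [prod_neg, ((U1.term_of_cf h).even hV).neg_one_pow, one_mul]

theorem ext_not (Λ : Finset Site) (η : Config) (T : Finset Site) :
    ext Λ (fun x => !η x) (Λ \ T) = fun x => !ext Λ η T x := by
  funext x
  unfold ext
  by_cases h : x ∈ Λ <;> simp [h]

theorem expect_not (β : ℝ) {H : Config → ℝ} (hH : ∀ σ, H (fun x => !σ x) = H σ) (Λ : Finset Site)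
    (η : Config) (F : Config → ℝ) :
    expect β H Λ (fun x => !η x) F = expect β H Λ η fun σ => F fun x => !σ x := by
  have e : ∀ g : Finset Site → ℝ, ∑ T ∈ Λ.powerset, g T = ∑ S ∈ Λ.powerset, g (Λ \ S) := by
    intro g
    refine sum_nbij' (fun T => Λ \ T) (fun T => Λ \ T) (fun T _ => by simp)
      (fun T _ => by simp) (fun T hT => ?_) (fun T hT => ?_) (fun T hT => ?_)
    · exact Finset.sdiff_sdiff_eq_self (mem_powerset.1 hT)
    · exact Finset.sdiff_sdiff_eq_self (mem_powerset.1 hT)
    · rw [Finset.sdiff_sdiff_eq_self (mem_powerset.1 hT)]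
  unfold expect
  rw [e, e fun T => Real.exp (-β * H (ext Λ (fun x => !η x) T))]
  simp only [ext_not, hH]

/-- The spin flip for fixed boundary conditions. -/
theorem gibbs_not (hV : IsPotential V) (Λ : Finset Site) (η : Config) (F : Config → ℝ) :
    gibbs J lam V β (some fun x => !η x) Λ F =
      gibbs J lam V β (some η) Λ fun σ => F fun x => !σ x :=
  expect_not β (energy_not hV _) Λ η F

theorem energy_congr (Λ : Finset Site) {σ τ : Config} (h : ∀ x ∈ Λ, σ x = τ x) :
    energy J lam V (fun A => A ⊆ Λ) σ = energy J lam V (fun A => A ⊆ Λ) τ := by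
  unfold energy
  congr 1
  refine finsum_congr fun A => finsum_congr fun hA => ?_
  rw [prod_congr rfl fun x hx => by rw [h x (hA hx)]]

/-- Odd observables vanish for the free boundary condition. -/
theorem gibbs_free_odd (hV : IsPotential V) (Λ : Finset Site) {F : Config → ℝ}
    (hF : ∀ σ σ', (∀ x ∈ Λ, σ x = σ' x) → F σ = F σ') (ho : ∀ σ, F (fun x => !σ x) = -F σ) :
    gibbs J lam V β none Λ F = 0 := by
  have h := expect_not β (energy_not (J := J) (lam := lam) hV fun A => A ⊆ Λ) Λ (fun _ => true) F
  have k : ∀ T, ∀ x ∈ Λ, ext Λ (fun _ => !true) T x = ext Λ (fun _ => true) T x := fun T x hx => by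
    simp [ext, hx]
  have h2 : expect β (energy J lam V fun A => A ⊆ Λ) Λ (fun _ => !true) F =
      expect β (energy J lam V fun A => A ⊆ Λ) Λ (fun _ => true) F := by
    unfold expect
    simp only [fun T => hF _ _ (k T), fun T => energy_congr (J := J) (lam := lam) (V := V) Λ (k T)]
  have h3 := gibbs_mul (J := J) (lam := lam) (β := β) (V := V) none Λ (-1) F
  simp only [ho] at h
  simp only [neg_one_mul] at h3
  simp only [gibbs] at h3 ⊢
  linarith

end Vale.Agent.P144Z.UG
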