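import Vale.Agent.P144D.U.Alg
import Vale.Agent.P144D.Geo.A
import Vale.Agent.P144D.Geo.B
import Vale.Agent.P144D.C.Main
import Vale.Agent.P144D.H.Sec
import Vale.Agent.P144D.H.Plus
import Vale.Agent.P144Z.H3.Main

/-!
The correlations of a finite set of sites as sums over sectors.
-/

namespace Vale.Agent.P144Z.UL

open Finset P144

/-- The starting points of the edges of the energies. -/
def yE (M : ℕ) {m : ℕ} (y : Fin m → Site) (j : Fin m → Fin 2) (k : Fin m) : Tor M :=
  prj M (dualE (y k) (j k)).1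

/-- The directions of the edges of the energies. -/
def dE {m : ℕ} (y : Fin m → Site) (j : Fin m → Fin 2) (k : Fin m) : Fin 2 := (dualE (y k) (j k)).2

/-- The sum of the mixed correlations over the sectors. -/
noncomputable def mx (q : Par) {M : ℕ} [NeZero M] (R : Reg M) {H : ℕ} (a : Site)
    (hs : Fin H → Site) {m : ℕ} (y : Fin m → Site) (j : Fin m → Fin 2) {n : ℕ} (x : Fin n → Site)
    (t : Finset (Fin m)) : ℝ :=
  ∑ S, mixC q (R.cor q) R.pw (spinG M a x * holeG M a hs S) (fun k : t => yE M y j k)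
    fun k : t => dE y j k

theorem zd_add_dir (v : Site) (i : Fin 2) : zd (v + dir i) v ≤ 1 := by
  fin_cases i <;> simp [zd, dir]

theorem zd_self (v : Site) : zd v v = 0 := by simp [zd]

theorem tdist_le {M : ℕ} [NeZero M] (v : Site) : tdist (prj M v) 0 ≤ zd v 0 := by
  have h := tdist_prj_le (M := M) v 0
  rwa [G.prj_zero] at h

theorem box_pHV {M : ℕ} [NeZero M] {T : ℕ} {a b : Site} (ha : zd a 0 ≤ T) (hb : zd b 0 ≤ T) :
    BoxLoc (M := M) (T + 1) (obs M fun c => pHV c a b) := by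
  intro n n' h
  simp only [zd, Prod.fst_zero, Prod.snd_zero, sub_zero, max_le_iff] at ha hb
  unfold obs pHV bond
  refine congrArg₂ (· * ·) ?_ ?_
  · refine prod_congr rfl fun i hi => congrArg sgn (h (prj M ((i, a.2) + uz 0), _)
      ((tdist_le _).trans ?_))
    rw [mem_Ico] at hi
    simp only [zd, uz, if_true, Prod.mk_add_mk, Prod.fst_zero, Prod.snd_zero]
    omega
  · refine prod_congr rfl fun i hi => congrArg sgn (h (prj M ((b.1, i) + uz 1), _)
      ((tdist_le _).trans ?_))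
    rw [mem_Ico] at hi
    simp only [zd, uz, one_ne_zero, if_false, Prod.mk_add_mk, Prod.fst_zero, Prod.snd_zero]
    omega

/-- The parameters `q` describe the model `J, lam, β`. -/
structure Rel (J lam β : ℝ) (q : Par) : Prop where
  pot : IsPotential q.V
  range : ∀ B, q.V B ≠ 0 → (0, 0) ∈ B → B ∈ potSets q.R
  mu : q.μ = β * lam
  x : q.x = Real.exp (-(2 * β * J))

/-- The outer faces are connected to the base point or to a hole point. -/
def Cn (M : ℕ) (Λ : Finset Site) {H : ℕ} (a : Site) (hs : Fin H → Site) : Prop :=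
  ∀ u, u ∉ Λ.image (prj M) →
    OutConn (Λ.image (prj M)) u (prj M a) ∨ ∃ i, OutConn (Λ.image (prj M)) u (prj M (hs i))

theorem not_mem_image {M : ℕ} [NeZero M] {Λ : Finset Site} {T : ℕ} (hΛ : ∀ v ∈ Λ, zd v 0 ≤ T)
    (hM : 4 * T + 1 ≤ M) {a : Site} (ha : zd a 0 ≤ T) (h : a ∉ Λ) :
    prj M a ∉ Λ.image (prj M) := by
  intro hm
  obtain ⟨v, hv, e⟩ := mem_image.1 hm
  have h1 := hΛ v hv
  simp only [zd, Prod.fst_zero, Prod.snd_zero, sub_zero, max_le_iff] at ha h1
  have k : ∀ u : Site, u.1.natAbs ≤ T ∧ u.2.natAbs ≤ T → lft (prj M u) = u := fun u hu =>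
    lft_prj (by rw [Int.abs_eq_natAbs]; omega) (by rw [Int.abs_eq_natAbs]; omega)
  rw [← k a ha, ← e, k v h1] at h
  exact h hv

variable {J lam β : ℝ} {q : Par} {M : ℕ} [NeZero M] {Λ : Finset Site} {fr : Bool} {T r H m n : ℕ}
  {a : Site} {hs : Fin H → Site} {y : Fin m → Site} {j : Fin m → Fin 2} {x : Fin n → Site}

theorem out_pts (h1 : Holes Λ T r a hs) (hc : fr = false → Cn M Λ a hs) (hM : 4 * T + 1 ≤ M)
    (h : fr = false) : prj M a ∉ (regOf M Λ fr).In ∧ (∀ i, prj M (hs i) ∉ (regOf M Λ fr).In) ∧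
      ∀ u, u ∉ (regOf M Λ fr).In → OutConn (regOf M Λ fr).In u (prj M a) ∨
        ∃ i, OutConn (regOf M Λ fr).In u (prj M (hs i)) :=
  ⟨not_mem_image h1.box hM h1.a_le (h1.a_out a (by simp [zd_self])),
    fun i => not_mem_image h1.box hM (h1.h_le i) (h1.h_out i _ (by simp [zd_self])), hc h⟩

theorem ne_zero (hq : Rel J lam β q) (h1 : Holes Λ T r a hs) (hc : fr = false → Cn M Λ a hs)
    (hM : 4 * (T + q.R + 2) ≤ M) (hfr : fr = true → H = 0) :
    ZwC q ((regOf M Λ fr).cor q) (regOf M Λ fr).pw 1 ≠ 0 :=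
  (gibbs_sec q hq.pot hq.range hq.mu hq.x Λ h1.box hM fr a hs hfr (out_pts h1 hc (by omega))
    (fun _ => 1) (fun _ => 1) (fun _ _ _ => rfl) (fun _ _ => rfl) fun _ _ _ _ => rfl).2

theorem sec_eq (hq : Rel J lam β q) (h1 : Holes Λ T r a hs) (hc : fr = false → Cn M Λ a hs)
    (hM : 4 * (T + q.R + 2) ≤ M) (hx : ∀ i, x i ∈ Λ) (hy : ∀ k, y k ∈ Λ ∧ y k + dir (j k) ∈ Λ)
    (hfr : fr = true → H = 0 ∧ Even n) (t : Finset (Fin m)) :
    gibbs J lam q.V β (if fr then none else some fun _ => true) Λ (fun σ => (∏ i, sp (σ (x i))) *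
      ∏ k ∈ t, (sp (σ (y k)) * sp (σ (y k + dir (j k))) -
        enC q ((regOf M Λ fr).cor q) (regOf M Λ fr).pw (yE M y j k) (dE y j k))) =
      mx q (regOf M Λ fr) a hs y j x t / mx q (regOf M Λ fr) a hs y j Fin.elim0 ∅ := by
  set R := regOf M Λ fr with hR
  set e : Fin m → ℝ := fun k => enC q (R.cor q) R.pw (yE M y j k) (dE y j k) with he
  obtain ⟨h2, h3⟩ := gibbs_sec q hq.pot hq.range hq.mu hq.x Λ h1.box hM fr a hs
    (fun h => (hfr h).1) (out_pts h1 hc (by omega))
    (fun σ => (∏ i, sp (σ (x i))) * ∏ k ∈ t, (sp (σ (y k)) * sp (σ (y k + dir (j k))) - e k))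
    (fun c => (∏ k ∈ t, (sgn (c (yE M y j k, dE y j k)) - e k)) *
      obs M (fun c' => ∏ i, pHV c' a (x i)) c)
    (fun σ σ' h => by simp only [fun i => h _ (hx i), fun k => h _ (hy k).1, fun k => h _ (hy k).2])
    (fun s hs' => by
      have k1 : obs M (fun c' => ∏ i, pHV c' a (x i)) (dom s) =
          ∏ i, obs M (fun c' => pHV c' a (x i)) (dom s) := rfl
      have k2 : sp (per M s a) ^ n = 1 := by
        cases fr
        · rw [show per M s a = true from hs' rfl]
          simp [sp]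
        · rw [← (hfr rfl).2.pow_abs, U1.abs_sp, one_pow]
      rw [k1]
      simp only [pHV_dom, yE, dE, sgn_dom]
      rw [prod_mul_distrib, prod_const, card_univ, Fintype.card_fin, k2, one_mul, mul_comm])
    (fun _ c c' h => by
      have k1 : ∀ c, obs M (fun c' => ∏ i, pHV c' a (x i)) c =
          ∏ i, obs M (fun c' => pHV c' a (x i)) c := fun _ => rfl
      simp only [k1, fun i => box_pHV h1.a_le (h1.box _ (hx i)) c c' h]
      congr 1
      refine prod_congr rfl fun k _ => ?_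
      rw [h (yE M y j k, dE y j k) ((tdist_le _).trans ((h1.box _ ?_).trans (Nat.le_succ T)))]
      have : (dualE (y k) (j k)).1 = y k + dir (j k) := rfl
      rw [this]
      exact (hy k).2)
  rw [h2]
  unfold secE mx mixC
  rw [← sum_div, ← sum_div, div_div_div_cancel_right₀ h3]
  congr 1
  · refine sum_congr rfl fun S _ => ?_
    rw [mul_comm (spinG M a x), ← mul_assoc, ZwC_spinG]
    congr 1
    funext c
    rw [← prod_coe_sort t]
  · refine sum_congr rfl fun S _ => ?_
    simp only [spinG, univ_eq_empty, prod_empty, one_mul]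
    rfl

theorem lcor_eq (hq : Rel J lam β q) (h1 : Holes Λ T r a hs) (hc : fr = false → Cn M Λ a hs)
    (hM : 4 * (T + q.R + 2) ≤ M) (hx : ∀ i, x i ∈ Λ) (hy : ∀ k, y k ∈ Λ ∧ y k + dir (j k) ∈ Λ)
    (hfr : fr = true → H = 0 ∧ Even n) :
    lcor (gibbs J lam q.V β (if fr then none else some fun _ => true) Λ) x y j =
      psi (mx q (regOf M Λ fr) a hs y j Fin.elim0 ∅)
        (fun k => mx q (regOf M Λ fr) a hs y j Fin.elim0 {k}) (mx q (regOf M Λ fr) a hs y j x) := by
  refine recentre _ Λ _ (fun k σ => sp (σ (y k)) * sp (σ (y k + dir (j k)))) _ (fun k => ?_)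
    (sec_eq hq h1 hc hM hx hy hfr)
  have h := sec_eq (x := Fin.elim0) hq h1 hc hM (fun i => i.elim0) hy
    (fun h => ⟨(hfr h).1, Even.zero⟩) {k}
  simpa only [univ_eq_empty, prod_empty, one_mul, prod_singleton] using h

end Vale.Agent.P144Z.UL
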