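import Vale.Agent.P144D.Defs
import Vale.Agent.P144D.U.Gib
import Vale.Agent.P144Z.U4.Main

/-!
Block U2, first part: from finite sets of sites to domains of the plane.
-/

namespace Vale.Agent.P144Z.U2D

open Finset Filter Topology Vale.Agent.P144

variable {J lam β : ℝ} {V : Finset Site → ℝ}

theorem corr_eq (a : ℝ) (b : Option Config) (Λ : Finset Site) (p : Pts) :
    corr a (gibbs J lam V β b Λ) p = (a ^ (-(1 / 8) : ℝ)) ^ p.n * a⁻¹ ^ p.m *
      lcor (gibbs J lam V β b Λ) (fun i => fl a (p.x i)) (fun k => fl a (p.y k)) p.j := by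
  unfold corr lcor
  rw [← UG.gibbs_mul]
  congr 1
  funext σ
  simp only [prod_mul_distrib, prod_const, card_univ, Fintype.card_fin]
  ring

theorem lcor_not (hV : IsPotential V) (Λ : Finset Site) (η : Config) {n m : ℕ} (x : Fin n → Site)
    (y : Fin m → Site) (j : Fin m → Fin 2) :
    lcor (gibbs J lam V β (some fun x => !η x) Λ) x y j =
      (-1) ^ n * lcor (gibbs J lam V β (some η) Λ) x y j := by
  unfold lcor
  rw [← UG.gibbs_mul]
  simp only [UG.gibbs_not hV, U1.sp_not, neg_mul_neg]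
  congr 1
  funext σ
  rw [prod_neg, card_univ, Fintype.card_fin, mul_assoc]

/-- The lattice points of a configuration are separated and deep inside the domain. -/
theorem spins {D : Set ℂ} (hD : IsOpen D) {p : Pts} (hp : Good D p) {ρ : ℝ} (hρ : 0 < ρ) :
    ∃ s > (0 : ℝ), s ≤ ρ ∧ ∀ᶠ a : ℝ in 𝓝[>] (0 : ℝ), s / (2 * a) ≤ ⌊s / a⌋₊ ∧
      ∀ Λ : Finset Site, (∀ x, x ∈ Λ ↔ (⟨a * x.1, a * x.2⟩ : ℂ) ∈ D) →
        Spins Λ ⌊s / a⌋₊ (Sum.elim (fun i => fl a (p.x i)) fun k => fl a (p.y k)) := by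
  obtain ⟨c, hc, Λ₀, h⟩ := U4.sep hp.2.2.2
  have hz : ∀ i, Sum.elim p.x p.y i ∈ D := by
    rintro (i | k)
    · exact hp.2.1 i
    · exact hp.2.2.1 k
  generalize hzz : Sum.elim p.x p.y = z at h hz
  have e : ∀ a : ℝ, (Sum.elim (fun i => fl a (p.x i)) fun k => fl a (p.y k)) =
      fun i => fl a (z i) := by
    intro a
    rw [← hzz]
    funext i
    cases i <;> rfl
  obtain ⟨s, ⟨h1, h2⟩, hs⟩ : ∃ s : ℝ, ((∀ i, Metric.closedBall (z i) (4 * s) ⊆ D) ∧
      s < min c ρ) ∧ 0 < s := by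
    refine (((eventually_all.2 fun i => ?_).and (nhdsWithin_le_nhds (gt_mem_nhds
      (lt_min hc hρ)))).and (self_mem_nhdsWithin (a := (0 : ℝ)) (s := Set.Ioi 0))).exists
    obtain ⟨t, ht, h1⟩ := Metric.nhds_basis_closedBall.mem_iff.1 (hD.mem_nhds (hz i))
    filter_upwards [nhdsWithin_le_nhds (gt_mem_nhds (show 0 < t / 4 by positivity))] with s hs
    exact (Metric.closedBall_subset_closedBall (by linarith)).trans h1
  obtain ⟨h2, h3⟩ := lt_min_iff.1 h2
  refine ⟨s, hs, h3.le, ?_⟩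
  filter_upwards [h, nhdsWithin_le_nhds (gt_mem_nhds (half_pos hs)), self_mem_nhdsWithin] with
    a ha ha1 ha0
  have ha0' : 0 < a := ha0
  have h5 : 2 < s / a := by
    rw [lt_div_iff₀ ha0']
    linarith
  have r1 : (⌊s / a⌋₊ : ℝ) ≤ s / a := Nat.floor_le (by positivity)
  have r2 : s / a < ⌊s / a⌋₊ + 1 := Nat.lt_floor_add_one _
  have hn : ∀ i, |(((fl a (z i)).1 : ℤ) : ℝ) - (z i).re / a| ≤ 2 ∧
      |(((fl a (z i)).2 : ℤ) : ℝ) - (z i).im / a| ≤ 2 := fun i => by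
    simpa using U4.fl_near a (z i) 0 (by simp) (by simp)
  refine ⟨?_, fun Λ hΛ => ?_⟩
  · have : s / (2 * a) = s / a / 2 := by field_simp
    linarith
  rw [e]
  refine ⟨fun i v hv => (hΛ v).2 (h1 i ?_), fun i i' hi => lt_of_le_of_lt
    (Nat.floor_le_floor (div_le_div_of_nonneg_right h2.le ha0'.le)) ((ha.2.2 _ hn).2 i i' hi)⟩
  have h6 : (zd v (fl a (z i)) : ℝ) ≤ s / a := le_trans (by exact_mod_cast hv) r1
  rw [U4.zd_cast, max_le_iff] at h6
  have k : ∀ u w t : ℝ, |u - w| ≤ s / a → |w - t / a| ≤ 2 → |a * u - t| ≤ 2 * s := by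
    intro u w t k1 k2
    have k3 : |u - t / a| ≤ 2 * (s / a) := (abs_sub_le u w _).trans (by linarith)
    rw [show a * u - t = a * (u - t / a) by field_simp, abs_mul, abs_of_pos ha0',
      show 2 * s = a * (2 * (s / a)) by field_simp]
    exact mul_le_mul_of_nonneg_left k3 ha0'.le
  rw [Metric.mem_closedBall, dist_eq_norm]
  refine (Complex.norm_le_abs_re_add_abs_im _).trans ?_
  have k1 := k _ _ _ h6.1 (hn i).1
  have k2 := k _ _ _ h6.2 (hn i).2
  simp only [Complex.sub_re, Complex.sub_im]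
  linarith

/-- The discretisation of the tame domains. -/
def ShapeStmt : Prop :=
  ∀ (α : ℝ) (D : Set ℂ), Tame α D → ∃ T > 0, ∀ κ > 0, ∃ ρ > 0,
    ∀ a > 0, (∀ x, x ∈ disc D a ↔ (⟨a * x.1, a * x.2⟩ : ℂ) ∈ D) ∧
      (∀ x ∈ disc D a, a * zd x 0 ≤ T) ∧ ∀ r : ℕ, a * r ≤ ρ → ShapeZ (disc D a) α κ r

theorem diff (hS : ShapeStmt) {q : Par} {Zσ Zε α κ : ℝ} (hκ : 0 < κ) (hL : LatOK q Zσ Zε α κ)
    (hJ : 0 < J) (hV : IsPotential q.V) (hμ : q.μ = β * lam)
    (hx : q.x = Real.exp (-(2 * β * J))) {D : Set ℂ} (hD : Tame α D) {b : Option (ℝ → Config)}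
    (hb : StdBC b) : Diff D (crit J D b) (inDom J lam q.V β D b) Zσ Zε := by
  intro p hp
  obtain ⟨T, hT, h1⟩ := hS α D hD
  obtain ⟨ρ, hρ, h1⟩ := h1 κ hκ
  obtain ⟨s, hs, hsρ, h2⟩ := spins hD.1 hp hρ
  rw [Metric.tendsto_nhds]
  intro ε hε
  set K := ((s / 2) ^ (-(1 / 8) : ℝ)) ^ p.n * (s / 2)⁻¹ ^ p.m with hK
  have hK0 : 0 < K := by positivity
  obtain ⟨r₀, hr⟩ := hL J lam β hJ hμ hx p.n p.m ⌈2 * T / s⌉₊ (ε / (2 * K)) (by positivity)
  have h3 : ∀ᶠ a in 𝓝[>] (0 : ℝ), a < s / (2 * (r₀ + 1)) :=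
    nhdsWithin_le_nhds (gt_mem_nhds (by positivity))
  filter_upwards [h2, h3, self_mem_nhdsWithin] with a ⟨hrc, hP⟩ ha ha0
  have ha0' : 0 < a := ha0
  obtain ⟨d1, d2, d3⟩ := h1 a ha0'
  have r1 : (⌊s / a⌋₊ : ℝ) ≤ s / a := Nat.floor_le (by positivity)
  generalize ⌊s / a⌋₊ = r at hrc hP r1
  have hr0 : r₀ ≤ r := by
    have : (r₀ : ℝ) ≤ s / (2 * a) := by
      rw [lt_div_iff₀ (by positivity)] at ha
      rw [le_div_iff₀ (by positivity)]
      nlinarith
    exact_mod_cast this.trans hrc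
  have hbox : ∀ v ∈ disc D a, zd v 0 ≤ ⌈2 * T / s⌉₊ * r := fun v hv => by
    have : (zd v 0 : ℝ) ≤ (⌈2 * T / s⌉₊ : ℝ) * r := by
      calc (zd v 0 : ℝ) ≤ T / a := by
            rw [le_div_iff₀' ha0']
            exact d2 v hv
        _ = 2 * T / s * (s / (2 * a)) := by field_simp
        _ ≤ _ := mul_le_mul (Nat.le_ceil _) hrc (by positivity) (by positivity)
    exact_mod_cast this
  have hsh := d3 r (((le_div_iff₀' ha0').1 r1).trans hsρ)
  have key := fun b hb => hr r hr0 (disc D a) b _ _ p.j hb hsh hbox (hP _ d1)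
  have k1 : |lcor (inDom J lam q.V β D b a) (fun i => fl a (p.x i)) (fun k => fl a (p.y k)) p.j -
      Zσ ^ p.n * Zε ^ p.m * lcor (crit J D b a) (fun i => fl a (p.x i)) (fun k => fl a (p.y k))
        p.j| ≤ ε / (2 * K) * (r : ℝ) ^ (-((p.n : ℝ) / 8)) / (r : ℝ) ^ p.m := by
    rcases hb with rfl | rfl | rfl
    · exact key none (Or.inl rfl)
    · exact key _ (Or.inr rfl)
    · have k2 := key _ (Or.inr rfl)
      have e1 := lcor_not (J := J) (lam := lam) (β := β) hV (disc D a) (fun _ => true)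
        (fun i => fl a (p.x i)) (fun k => fl a (p.y k)) p.j
      have e2 := lcor_not (J := J) (lam := 0) (β := Kc / J) U1.pot_zero (disc D a) (fun _ => true)
        (fun i => fl a (p.x i)) (fun k => fl a (p.y k)) p.j
      change |lcor (gibbs J lam q.V β (some fun _ => !true) (disc D a)) _ _ _ - Zσ ^ p.n *
        Zε ^ p.m * lcor (gibbs J 0 (fun _ => 0) (Kc / J) (some fun _ => !true) (disc D a)) _ _ _| ≤ _
      rw [e1, e2, mul_left_comm, ← mul_sub, abs_mul, abs_pow, abs_neg, abs_one, one_pow, one_mul]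
      exact k2
  have k2 := U4.scale ha0' hs hrc p.n p.m
  rw [Real.dist_eq, sub_zero]
  unfold crit inDom at *
  rw [corr_eq, corr_eq, mul_left_comm, ← mul_sub, abs_mul, abs_of_nonneg (by positivity)]
  refine lt_of_le_of_lt (mul_le_mul_of_nonneg_left k1 (by positivity)) ?_
  rw [← hK, neg_div] at k2
  calc _ = ε / (2 * K) * ((a ^ (-(1 / 8) : ℝ)) ^ p.n * a⁻¹ ^ p.m / r ^ p.m *
        (r : ℝ) ^ (-((p.n : ℝ) / 8))) := by ring
    _ ≤ ε / (2 * K) * K := mul_le_mul_of_nonneg_left k2 (by positivity)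
    _ = ε / 2 := by field_simp
    _ < ε := half_lt_self hε

theorem ident {D : Set ℂ} {E₀ E : Fam} {Zσ Zε : ℝ} (h : Diff D E₀ E Zσ Zε) :
    Identity D E₀ E Zσ Zε := fun p hp c hc => by
  have := (h p hp).add (hc.const_mul (Zσ ^ p.n * Zε ^ p.m))
  simpa [Lim] using this

/-- The assembly, from the main statements. -/
theorem domQ1_aux (hT : ShapeStmt) (h0 : ∀ L η δ, 0 ≤ η → 0 ≤ δ → Crit L par0 η δ)
    (hB : BulkStmt) (hS : StateStmt) (hM : LatStmt) : DomQ1 := by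
  intro α hα J hJ V hV ε hε
  obtain ⟨LB, hB⟩ := hB
  obtain ⟨LS, hS⟩ := hS
  obtain ⟨LM, hM⟩ := hM α hα
  set L := max LB (max LS LM) with hL
  obtain ⟨ηB, hηB, hB⟩ := hB L (le_max_left _ _)
  obtain ⟨ηS, hηS, hS⟩ := hS L (le_max_of_le_right (le_max_left _ _))
  obtain ⟨κ, hκ, hM⟩ := hM L (le_max_of_le_right (le_max_right _ _))
  obtain ⟨ηM, hηM, hM⟩ := hM (min ε (1 / 2)) (by positivity)
  obtain ⟨η₁, hη₁, hc⟩ : ∃ η₁ > 0, ∀ x : ℝ, |x - tc| ≤ η₁ →
      |-Real.log x / (2 * J) - Kc / J| < ε := by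
    have htc : tc ≠ 0 := by
      rw [U4.tc_eq]
      exact (Real.exp_pos _).ne'
    have h1 : ContinuousAt (fun x : ℝ => -Real.log x / (2 * J)) tc :=
      ((Real.continuousAt_log htc).neg).div_const _
    obtain ⟨δ, hδ, h2⟩ := Metric.continuousAt_iff.1 h1 ε hε
    refine ⟨δ / 2, by positivity, fun x hx => ?_⟩
    have h3 := h2 (x := x) (by rw [Real.dist_eq]; linarith)
    have e : -Real.log tc / (2 * J) = Kc / J := by
      rw [U4.tc_eq, Real.log_exp]
      field_simp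
    rwa [Real.dist_eq, e] at h3
  obtain ⟨R, hR⟩ := U4.exists_R hV
  obtain ⟨δS, hδS, hS1⟩ := hS R
  obtain ⟨δ0, hδ0, hS0⟩ := hS 0
  obtain ⟨δM, hδM, hM⟩ := hM R
  set η := min (min ηB ηS) (min ηM η₁) with hη
  obtain ⟨κ₀, hκ₀, hB⟩ := hB η (by positivity) ((min_le_left _ _).trans (min_le_left _ _)) V R hV
    hR (min δS δM) (by positivity)
  refine ⟨2 * J * κ₀, by positivity, fun lam hlam => ?_⟩
  obtain ⟨x, Z, hq⟩ := hB (lam / (2 * J)) (by
    rw [abs_div, abs_of_pos (by positivity : 0 < 2 * J), div_lt_iff₀ (by positivity)]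
    linarith)
  set q : Par := ⟨V, R, lam / (2 * J) * (-Real.log x), x, Z⟩ with hqdef
  have hx0 : 0 < x := lt_of_lt_of_le (by norm_num) hq.ok.x_lo
  have hx1 : x < 1 := lt_of_le_of_lt hq.ok.x_hi (by norm_num)
  have hrel : U4.Rel J lam (-Real.log x / (2 * J)) q :=
    { pot := hV
      range := hR
      mu := by
        change lam / (2 * J) * (-Real.log x) = _
        ring
      x := by
        change x = _
        rw [show -(2 * (-Real.log x / (2 * J)) * J) = Real.log x by field_simp, Real.exp_log hx0]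
      st := hS1 q rfl (hq.mono ((min_le_left _ _).trans (min_le_right _ _)) (min_le_left _ _)) }
  have hrel0 := U4.rel_zero hJ (hS0 par0 rfl (h0 L ηS δ0 hηS.le hδ0.le))
  obtain ⟨Zσ, Zε, z1, z2, hmain, hlat⟩ := hM q rfl
    (hq.mono ((min_le_right _ _).trans (min_le_left _ _)) (min_le_right _ _))
  obtain ⟨z3, z4⟩ := lt_min_iff.1 z1
  obtain ⟨z5, z6⟩ := lt_min_iff.1 z2
  refine ⟨-Real.log x / (2 * J), div_pos (neg_pos.2 (Real.log_neg hx0 hx1)) (by positivity),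
    Zσ, Zε, hc x (hq.x.trans ((min_le_right _ _).trans (min_le_right _ _))), z3, z5, ?_, ?_,
    U1.plane_of_torus hJ hV hrel.spin fun p hp hn e he => U4.est hJ hrel hrel0 hmain hp hn he,
    fun D hD b hb => ?_⟩
  · rintro rfl
    norm_num at z4
  · rintro rfl
    norm_num at z6
  · have h := diff hT hκ hlat hJ hV hrel.mu hrel.x hD hb
    exact ⟨h, ident h⟩

end Vale.Agent.P144Z.U2D
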