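import Vale.Agent.P144D.U.Gib

/-!
The recentred correlation as a function of sums over sectors.
-/

namespace Vale.Agent.P144Z.UL

open Finset

/-- The centred correlation in terms of the normalisation `D`, the means `A` and the moments `N`. -/
noncomputable def psi {m : ℕ} (D : ℝ) (A : Fin m → ℝ) (N : Finset (Fin m) → ℝ) : ℝ :=
  ∑ t : Finset (Fin m), (∏ k ∈ tᶜ, -(A k / D)) * (N t / D)

theorem psi_scale {m : ℕ} (D : ℝ) (A : Fin m → ℝ) (N : Finset (Fin m) → ℝ) (s z : ℝ) :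
    psi D (fun k => s * A k) (fun t => z * s ^ t.card * N t) = z * s ^ m * psi D A N := by
  unfold psi
  rw [mul_sum]
  refine sum_congr rfl fun t _ => ?_
  have e : ∏ k ∈ tᶜ, -(s * A k / D) = s ^ tᶜ.card * ∏ k ∈ tᶜ, -(A k / D) := by
    rw [← prod_const, ← prod_mul_distrib]
    exact prod_congr rfl fun k _ => by ring
  have e2 : s ^ m = s ^ tᶜ.card * s ^ t.card := by
    rw [← pow_add, add_comm, card_add_card_compl, Fintype.card_fin]
  rw [e, e2]
  ring

theorem psi_cont (m : ℕ) (B : ℝ) {ε : ℝ} (hε : 0 < ε) : ∃ δ > 0, ∀ (D D' : ℝ) (A A' : Fin m → ℝ)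
    (N N' : Finset (Fin m) → ℝ), 1 ≤ D' → D' ≤ B → (∀ k, |A' k| ≤ B) → (∀ t, |N' t| ≤ B) →
    |D - D'| ≤ δ → (∀ k, |A k - A' k| ≤ δ) → (∀ t, |N t - N' t| ≤ δ) →
      |psi D A N - psi D' A' N'| ≤ ε := by
  set K : Set (ℝ × (Fin m → ℝ) × (Finset (Fin m) → ℝ)) := Set.Icc (1 / 2) (B + 1) ×ˢ
    Metric.closedBall 0 (B + 1) ×ˢ Metric.closedBall 0 (B + 1) with hK
  have hc : IsCompact K :=
    isCompact_Icc.prod ((isCompact_closedBall _ _).prod (isCompact_closedBall _ _))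
  have hf : ContinuousOn (fun p : ℝ × (Fin m → ℝ) × (Finset (Fin m) → ℝ) =>
      psi p.1 p.2.1 p.2.2) K := by
    have h0 : ∀ p ∈ K, p.1 ≠ 0 := fun p hp => by
      have := hp.1.1
      positivity
    refine continuousOn_finsetSum _ fun t _ => ContinuousOn.mul
      (continuousOn_finsetProd _ fun k _ => ContinuousOn.neg (ContinuousOn.div ?_ ?_ h0))
      (ContinuousOn.div ?_ ?_ h0) <;> fun_prop
  obtain ⟨δ, hδ, h⟩ := Metric.uniformContinuousOn_iff_le.1
    (hc.uniformContinuousOn_of_continuous hf) ε hε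
  refine ⟨min δ (1 / 2), by positivity, fun D D' A A' N N' h1 h2 h3 h4 h5 h6 h7 => ?_⟩
  have hB : 0 ≤ B + 1 := by linarith
  have m1 := min_le_left δ (1 / 2)
  have m2 := min_le_right δ (1 / 2)
  have k : ∀ a a' : ℝ, |a'| ≤ B → |a - a'| ≤ min δ (1 / 2) → |a| ≤ B + 1 := fun a a' e1 e2 => by
    have := abs_add_le (a - a') a'
    rw [sub_add_cancel] at this
    linarith
  have h8 := abs_le.1 h5
  refine h (D, A, N) ⟨⟨by linarith, by linarith⟩, ?_, ?_⟩ (D', A', N')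
    ⟨⟨by linarith, by linarith⟩, ?_, ?_⟩ ?_
  · exact mem_closedBall_zero_iff.2 ((pi_norm_le_iff_of_nonneg hB).2 fun i => k _ _ (h3 i) (h6 i))
  · exact mem_closedBall_zero_iff.2 ((pi_norm_le_iff_of_nonneg hB).2 fun i => k _ _ (h4 i) (h7 i))
  · exact mem_closedBall_zero_iff.2 ((pi_norm_le_iff_of_nonneg hB).2 fun i =>
      (h3 i).trans (by linarith))
  · exact mem_closedBall_zero_iff.2 ((pi_norm_le_iff_of_nonneg hB).2 fun i =>
      (h4 i).trans (by linarith))
  · rw [Prod.dist_eq, Prod.dist_eq]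
    exact max_le (h5.trans m1) (max_le ((dist_pi_le_iff hδ.le).2 fun i => (h6 i).trans m1)
      ((dist_pi_le_iff hδ.le).2 fun i => (h7 i).trans m1))

open P144 in
/-- Recentring. -/
theorem recentre {J lam β : ℝ} {V : Finset Site → ℝ} (b : Option Config) (Λ : Finset Site) {m : ℕ}
    (F : Config → ℝ) (G : Fin m → Config → ℝ) (e : Fin m → ℝ) {D : ℝ} {A : Fin m → ℝ}
    {N : Finset (Fin m) → ℝ} (hA : ∀ k, gibbs J lam V β b Λ (fun σ => G k σ - e k) = A k / D)
    (hN : ∀ t, gibbs J lam V β b Λ (fun σ => F σ * ∏ k ∈ t, (G k σ - e k)) = N t / D) :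
    gibbs J lam V β b Λ (fun σ => F σ * ∏ k, (G k σ - gibbs J lam V β b Λ (G k))) = psi D A N := by
  unfold psi
  simp only [← hN, ← UG.gibbs_sum]
  congr 1
  funext σ
  have h : ∀ k, G k σ - gibbs J lam V β b Λ (G k) = (G k σ - e k) + -(A k / D) := fun k => by
    rw [← hA, UG.gibbs_sub_const]
    ring
  simp only [h]
  rw [Fintype.prod_add, mul_sum]
  exact sum_congr rfl fun t _ => by ring

end Vale.Agent.P144Z.UL
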