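import Vale.Agent.P144D.U.Dom
import Vale.Agent.P144D.Dom.A
import Vale.Agent.P144Z.R7.Main
import Vale.Agent.P144Z.S.Main

/-!
Block U2: the statement in domains follows from the statement on the lattice.
-/

namespace Vale.Agent.P144Z

theorem domQ1_of (h : LatStmt) : DomQ1 :=
  U2D.domQ1_aux (fun _ _ hD => shape_of_tame hD) crit_par0 bulkStmt stateStmt h

end Vale.Agent.P144Z
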